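import Vale.Agent.P065.UB.H759.Sl
import Vale.Agent.P065.UB.H151.FP

/-!
# P065, upper bound, line P: block [FIB] (helper651)
-/

set_option autoImplicit false

namespace Vale.Agent.P065.UB.H651

open Finset Vale.Agent.P065.UB Vale.Agent.P065.UB.H759

/-- few values of the floor near a point -/
theorem card_floor (T : Finset Pt) (f : Pt → ℝ) {δ x l : ℝ} (hδ : 0 < δ) (hl : 0 ≤ l)
    (h : ∀ q ∈ T, |f q - x| ≤ l * δ) : (#(T.image (fun q => ⌊f q / δ⌋)) : ℝ) ≤ 2 * l + 4 := by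
  classical
  have h1 := card_sep_le (T.image (fun q => ⌊f q / δ⌋)) (fun i : ℤ => (i : ℝ)) (δ := 1)
    (x := x / δ) (l := l + 1) one_pos (by positivity) (fun i _ j _ hne => ?_) (fun i hi => ?_)
  · refine h1.trans (le_of_eq ?_)
    ring
  · have : (1 : ℤ) ≤ |i - j| := Int.one_le_abs (sub_ne_zero.2 hne)
    exact_mod_cast this
  · obtain ⟨q, hq, rfl⟩ := mem_image.1 hi
    have h2 := h q hq
    have h3 : |f q / δ - x / δ| ≤ l := by
      rw [← sub_div, abs_div, abs_of_pos hδ, div_le_iff₀ hδ]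
      exact h2
    have h4 := Int.floor_le (f q / δ)
    have h5 := Int.lt_floor_add_one (f q / δ)
    have h6 := abs_le.1 h3
    rw [abs_le]
    constructor <;> linarith

theorem stFib_of (hFP : StFP) : StFib := by
  classical
  obtain ⟨eP, cP, hFP⟩ := hFP
  refine ⟨eP + 23, fun s => ⟨cP + 40, fun C0 hC K L lam δ Q ι W a b Y J w₀ ε p₁ p₂ P3 G0 h k => ?_⟩⟩
  have hPJ := h.fr.pj
  have hL0 := h.fr.L0
  have hL1 := hPJ.L1
  have hl0 : 0 < lam := by linarith [hPJ.lam1]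
  have hδ := hPJ.dpos
  have hbig := h.fr.Lbig
  have hfp := hFP C0 (by omega) K L lam δ Q ι W a b Y J hPJ
  set T : Finset Pt := {q ∈ G0 | kap (L ^ 8 * δ) ε p₁ p₂ q = k} with hT
  have hd : 0 < L ^ 8 * δ := by positivity
  rcases T.eq_empty_or_nonempty with hem | ⟨q₀, hq₀⟩
  · rw [hem, card_empty]
    push_cast
    rw [mul_zero]
    positivity
  obtain ⟨hq₀G, hq₀k⟩ := mem_filter.1 hq₀
  -- distances
  have hdist : ∀ q ∈ T, |q.1 - q₀.1| ≤ 152 * L ^ 11 * δ ∧ |q.2 - q₀.2| ≤ 220 * L ^ 11 * δ := by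
    intro q hq
    obtain ⟨hqG, hqk⟩ := mem_filter.1 hq
    have hk : kap (L ^ 8 * δ) ε p₁ p₂ q = kap (L ^ 8 * δ) ε p₁ p₂ q₀ := hqk.trans hq₀k.symm
    have hk1 : rd (L ^ 8 * δ) (cc ε p₁ p₂ p₁ q) = rd (L ^ 8 * δ) (cc ε p₁ p₂ p₁ q₀) :=
      congrArg Prod.fst hk
    have hk2 : rd (L ^ 8 * δ) (cc ε p₁ p₂ p₂ q) = rd (L ^ 8 * δ) (cc ε p₁ p₂ p₂ q₀) :=
      congrArg Prod.snd hk
    have key : ∀ t t' : ℝ, rd (L ^ 8 * δ) t = rd (L ^ 8 * δ) t' →
        |t - t'| ≤ 2 * (L ^ 8 * δ) := by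
      intro t t' he
      have h1 := abs_le.1 (rd_near (t := t) hd)
      have h2 := abs_le.1 (rd_near (t := t') hd)
      rw [he] at h1
      rw [abs_le]
      constructor <;> linarith
    obtain ⟨h1, h2⟩ := h.fr.inv_lip (q := q) (q' := q₀) (θ := 2 * (L ^ 8 * δ)) (by positivity)
      (hPJ.box q (h.subG hqG)) (h.fr.hh_low (h.jn q hqG).1 (h.jn q hqG).2.2)
      (h.fr.hh_up (h.jn q hqG).1)
      (h.fr.hh_low (h.jn q₀ hq₀G).1 (h.jn q₀ hq₀G).2.2) (h.fr.hh_up (h.jn q₀ hq₀G).1) (key _ _ hk1) (key _ _ hk2)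
    constructor
    · calc _ ≤ _ := h1
        _ = _ := by ring
    · calc _ ≤ _ := h2
        _ = _ := by ring
  have hA := card_floor T (fun q => q.1) (x := q₀.1) (l := 152 * L ^ 11) hδ (by positivity)
    fun q hq => (hdist q hq).1
  have hB := card_floor T (fun q => q.2) (x := q₀.2) (l := 220 * L ^ 11) hδ (by positivity)
    fun q hq => (hdist q hq).2
  have hsq : (#(T.image (sqc δ)) : ℝ) ≤ L ^ 23 := by
    have h1 : T.image (sqc δ) ⊆
        (T.image (fun q => ⌊q.1 / δ⌋)) ×ˢ (T.image (fun q => ⌊q.2 / δ⌋)) := by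
      intro z hz
      obtain ⟨q, hq, rfl⟩ := mem_image.1 hz
      exact mem_product.2 ⟨mem_image_of_mem _ hq, mem_image_of_mem _ hq⟩
    have h2 : (#(T.image (sqc δ)) : ℝ) ≤
        #(T.image (fun q => ⌊q.1 / δ⌋)) * #(T.image (fun q => ⌊q.2 / δ⌋)) := by
      have := card_le_card h1
      rw [card_product] at this
      exact_mod_cast this
    have h3 : 1 ≤ L ^ 11 := one_le_pow₀ hL1
    calc _ ≤ _ := h2
      _ ≤ (2 * (152 * L ^ 11) + 4) * (2 * (220 * L ^ 11) + 4) := by gcongr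
      _ ≤ (308 * L ^ 11) * (444 * L ^ 11) := by
          gcongr <;> linarith
      _ = 136752 * L ^ 22 := by ring
      _ ≤ L * L ^ 22 := by
          have : (136752 : ℝ) ≤ 2 ^ 40 := by norm_num
          gcongr
          linarith
      _ = _ := by ring
  have h1 : (#T : ℝ) = ∑ z ∈ T.image (sqc δ), (#{q ∈ T | sqc δ q = z} : ℝ) := by
    exact_mod_cast card_eq_sum_card_image (sqc δ) T
  have h2 : ∀ z ∈ T.image (sqc δ), lam ^ 2 * (#{q ∈ T | sqc δ q = z} : ℝ) ≤ L ^ eP * #Q := by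
    intro z hz
    obtain ⟨q, hq, rfl⟩ := mem_image.1 hz
    have hqG := h.gdG (mem_filter.1 hq).1
    refine le_trans ?_ (hfp q hqG)
    have h3 : #{q' ∈ T | sqc δ q' = sqc δ q} ≤ #{p ∈ Gd K L lam δ Q W Y | sqc δ p = sqc δ q} := by
      refine card_le_card fun x hx => ?_
      obtain ⟨hx1, hx2⟩ := mem_filter.1 hx
      exact mem_filter.2 ⟨h.gdG (mem_filter.1 hx1).1, hx2⟩
    have h4 : (#{q' ∈ T | sqc δ q' = sqc δ q} : ℝ) ≤
        (#{p ∈ Gd K L lam δ Q W Y | sqc δ p = sqc δ q} : ℝ) := by exact_mod_cast h3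
    gcongr
  calc lam ^ 2 * (#T : ℝ) = ∑ z ∈ T.image (sqc δ), lam ^ 2 * (#{q ∈ T | sqc δ q = z} : ℝ) := by
        rw [h1, mul_sum]
    _ ≤ ∑ z ∈ T.image (sqc δ), L ^ eP * (#Q : ℝ) := sum_le_sum h2
    _ = #(T.image (sqc δ)) * (L ^ eP * (#Q : ℝ)) := by rw [sum_const, nsmul_eq_mul]
    _ ≤ L ^ 23 * (L ^ eP * (#Q : ℝ)) := by gcongr
    _ = _ := by rw [pow_add]; ring

/-- **[FIB]** -/
theorem stFib : StFib := stFib_of Vale.Agent.P065.UB.H151.stFP

end Vale.Agent.P065.UB.H651
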