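import Vale.Agent.P065.UB.H759.StarDef
import Vale.Agent.P065.H626.AC2Defs

/-!
# P065, upper bound, line P: the grid data `GridIn` from the selected data (helper651)
-/

set_option autoImplicit false

namespace Vale.Agent.P065.UB.H651

open Finset Vale.Agent.P065.UB Vale.Agent.P065.UB.H759
open Vale.Agent.P118.OF (Sep)
open Vale.Agent.P065.H626 (Box GridIn)

theorem al_inj {p₁ p₂ p p' : Pt} (h12 : p₂.1 - p₁.1 ≠ 0) (h : p₂.1 - p.1 ≠ 0)
    (h' : p₂.1 - p'.1 ≠ 0) (he : al p₁ p₂ p = al p₁ p₂ p') : p.1 = p'.1 := by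
  have h1 : gg p₁ p₂ p = gg p₁ p₂ p' := by rw [gg_eq h, gg_eq h', he]
  unfold gg at h1
  rw [div_eq_div_iff h h'] at h1
  have := mul_left_cancel₀ h12 h1
  linarith

theorem box_mono {al t r t' r' s₀ h₀ : ℝ} (ht : t ≤ t') (hr : r ≤ r') {q : ℝ × ℝ}
    (h : Box al t r s₀ h₀ q) : Box al t' r' s₀ h₀ q := ⟨h.1.trans ht, h.2.trans hr⟩

theorem gridIn_of (hFP : StFP) (hFib : StFib) (hStar : StStarC) :
    ∃ E : ℕ, 3 ≤ E ∧ ∀ s : ℕ, ∃ c : ℕ, ∀ C0 : ℕ, c ≤ C0 → ∀ (K L lam δ : ℝ) (Q : Finset Pt)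
      (ι : Type) (W : Finset ι) (a b : ι → ℝ) (Y : ι → Finset Pt) (J : ι → Finset (Pt × Pt))
      (w₀ : ι) (ε : ℝ) (p₁ p₂ : Pt) (P3 G0 : Finset Pt),
      Sl s C0 K L lam δ Q W a b Y J w₀ ε p₁ p₂ P3 G0 →
      ∃ (A B H : Finset ℝ) (S : ℝ → Finset ℝ) (C : ℝ → ℝ → Finset (ℝ × ℝ))
        (P0 : Finset (ℝ × ℝ)),
        GridIn (L ^ E) lam (#Q / lam ^ 2) (L ^ 8 * δ) A B H S C P0 ∧ (∀ x ∈ H, |x| ≤ L ^ E) ∧
        (∀ x ∈ H, open Classical in
          (#Q : ℝ) ≤ L * lam * #{q ∈ G0 | rd (L ^ 8 * δ) (cc ε p₁ p₂ p₂ q) = x}) := by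
  classical
  obtain ⟨eP, cP, hFP⟩ := hFP
  obtain ⟨eF, hFib⟩ := hFib
  obtain ⟨eS, cS, hStar⟩ := hStar
  refine ⟨eP + eF + eS + 3, by omega, fun s => ?_⟩
  obtain ⟨cF, hFib⟩ := hFib s
  refine ⟨cP + cF + cS + s + 40, fun C0 hC K L lam δ Q ι W a b Y J w₀ ε p₁ p₂ P3 G0 h => ?_⟩
  have hPJ := h.fr.pj
  have hL0 := h.fr.L0
  have hL1 := hPJ.L1
  have hl1 := hPJ.lam1
  have hl0 : 0 < lam := by linarith
  have hN := hPJ.N0
  have hd := h.d0
  have hbig := h.fr.Lbig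
  have hmono : ∀ {i j : ℕ}, i ≤ j → L ^ i ≤ L ^ j := fun hij => pow_le_pow_right₀ hL1 hij
  set E := eP + eF + eS + 3 with hE
  -- the apexes
  obtain ⟨P', hP', hinj, hcard⟩ := h.exists_apex (by omega) (e := eP)
    (hFP C0 (by omega) K L lam δ Q ι W a b Y J hPJ)
  have hfib := hFib C0 (by omega) K L lam δ Q ι W a b Y J w₀ ε p₁ p₂ P3 G0 h
  have hst := hStar s C0 (by omega) K L lam δ Q ι W a b Y J w₀ ε p₁ p₂ P3 G0 h P' hP' hinj
    (Gp L lam δ ε p₁ p₂ #Q G0) Gp_sub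
  set G := Gp L lam δ ε p₁ p₂ #Q G0 with hG
  have hainj : Set.InjOn (al p₁ p₂) P' := by
    intro p hp p' hp' he
    refine hinj hp hp' ?_
    have := al_inj h.fr.ne12 (h.ne2 (hP' hp)) (h.ne2 (hP' hp')) he
    simp only [this]
  set pinv : ℝ → Pt := Function.invFunOn (al p₁ p₂) P' with hpinv
  have hpi : ∀ p ∈ P', pinv (al p₁ p₂ p) = p := fun p hp => hainj.leftInvOn_invFunOn hp
  set yy : ℝ → Finset (ℝ × ℝ) := fun x => Ya L lam δ ε p₁ p₂ #Q W a J w₀ G (pinv x) with hyy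
  have hYsub : ∀ p k, k ∈ Ya L lam δ ε p₁ p₂ #Q W a J w₀ G p →
      ∃ q ∈ G, k = kap (L ^ 8 * δ) ε p₁ p₂ q := by
    intro p k hk
    obtain ⟨q, hq, rfl⟩ := mem_image.1 hk
    obtain ⟨w, _, hq⟩ := mem_biUnion.1 hq
    exact ⟨q, (mem_filter.1 (mem_filter.1 hq).1).1, rfl⟩
  have hGG : G ⊆ G0 := Gp_sub
  refine ⟨P'.image (al p₁ p₂), G.image (fun q => rd (L ^ 8 * δ) (cc ε p₁ p₂ p₁ q)),
    G.image (fun q => rd (L ^ 8 * δ) (cc ε p₁ p₂ p₂ q)),
    fun x => (yy x).image (st L δ p₁ p₂ (pinv x)),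
    fun x y => {k ∈ yy x | st L δ p₁ p₂ (pinv x) k = y},
    P0c L ε p₁ p₂ Q, ?_, ?_, ?_⟩
  · refine
    { hK := ?_
      δ0 := hd
      n0 := hl0
      m0 := by positivity
      cA := ?_
      A1 := ?_
      sB := ?_
      sH := ?_
      cB := ?_
      cH := ?_
      cS := ?_
      sub := ?_
      disj := ?_
      near := ?_
      full := ?_
      cP := ?_
      star := ?_ }
    · calc (3072 : ℝ) ≤ 2 ^ 40 := by norm_num
        _ ≤ L := hbig
        _ = L ^ 1 := (pow_one L).symm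
        _ ≤ L ^ E := hmono (by omega)
    · rw [card_image_of_injOn hainj]
      refine hcard.trans ?_
      have := hmono (i := eP + 1) (j := E) (by omega)
      gcongr
    · intro x hx
      obtain ⟨p, hp, rfl⟩ := mem_image.1 hx
      obtain ⟨h1, h2, -, -⟩ := h.al_abs (hP' hp)
      have h3 := hmono (i := 1) (j := E) (by omega)
      rw [pow_one] at h3
      refine ⟨?_, h2.trans h3⟩
      calc (1 : ℝ) = L * (1 / L) := by field_simp
        _ ≤ L ^ E * |al p₁ p₂ p| := by gcongr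
    · intro x hx y hy hne
      obtain ⟨q, -, rfl⟩ := mem_image.1 hx
      obtain ⟨q', -, rfl⟩ := mem_image.1 hy
      rw [Real.dist_eq]
      exact rd_sep hd hne
    · intro x hx y hy hne
      obtain ⟨q, -, rfl⟩ := mem_image.1 hx
      obtain ⟨q', -, rfl⟩ := mem_image.1 hy
      rw [Real.dist_eq]
      exact rd_sep hd hne
    · have h1 := h.card_pos h.fr.m1 (G.image (fun q => rd (L ^ 8 * δ) (cc ε p₁ p₂ p₁ q)))
        (fun x hx => by
          obtain ⟨q, hq, rfl⟩ := mem_image.1 hx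
          exact ⟨q, hGG hq, (h.jn q (hGG hq)).1, rfl⟩)
      have h2 := hPJ.mulK (s := 1) (t := 3) (by omega)
      have h3 := hmono (i := 1) (j := E) (by omega)
      rw [pow_one] at h2 h3
      have h4 : 6 * K ≤ L ^ E := by
        have := hPJ.K1
        linarith
      calc _ ≤ _ := h1
        _ ≤ L ^ E * lam := by gcongr
    · have h1 := h.card_pos h.fr.m2 (G.image (fun q => rd (L ^ 8 * δ) (cc ε p₁ p₂ p₂ q)))
        (fun x hx => by
          obtain ⟨q, hq, rfl⟩ := mem_image.1 hx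
          exact ⟨q, hGG hq, (h.jn q (hGG hq)).2.1, rfl⟩)
      have h2 := hPJ.mulK (s := 1) (t := 3) (by omega)
      have h3 := hmono (i := 1) (j := E) (by omega)
      rw [pow_one] at h2 h3
      have h4 : 6 * K ≤ L ^ E := by
        have := hPJ.K1
        linarith
      calc _ ≤ _ := h1
        _ ≤ L ^ E * lam := by gcongr
    · intro x hx
      obtain ⟨p, hp, rfl⟩ := mem_image.1 hx
      simp only [hyy, hpi p hp]
      have h1 := h.cardS hGG (hP' hp)
      have h2 := hmono (i := 2) (j := E) (by omega)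
      calc _ ≤ _ := h1
        _ ≤ L ^ E * lam := by gcongr
    · intro x hx y hy q hq
      obtain ⟨q', hq', rfl⟩ := hYsub _ _ (mem_filter.1 hq).1
      exact ⟨mem_image_of_mem _ hq', mem_image_of_mem _ hq'⟩
    · intro x hx y hy y' hy' hne
      rw [disjoint_left]
      intro k hk hk'
      exact hne ((mem_filter.1 hk).2.symm.trans (mem_filter.1 hk').2)
    · intro x hx y hy q hq
      obtain ⟨p, hp, rfl⟩ := mem_image.1 hx
      have h1 := (mem_filter.1 hq).2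
      rw [hpi p hp] at h1
      rw [← h1]
      exact rd_near hd
    · intro x hx
      obtain ⟨p, hp, rfl⟩ := mem_image.1 hx
      simp only [hyy, hpi p hp]
      have h1 := h.full (by omega) (e := eF) hfib (hP' hp)
      have h2 : (#(Ya L lam δ ε p₁ p₂ #Q W a J w₀ G p) : ℝ) =
          ∑ y ∈ (Ya L lam δ ε p₁ p₂ #Q W a J w₀ G p).image (st L δ p₁ p₂ p),
            (#{k ∈ Ya L lam δ ε p₁ p₂ #Q W a J w₀ G p | st L δ p₁ p₂ p k = y} : ℝ) := by
        exact_mod_cast card_eq_sum_card_image (st L δ p₁ p₂ p)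
          (Ya L lam δ ε p₁ p₂ #Q W a J w₀ G p)
      rw [← h2]
      have h3 := hmono (i := eF + 1) (j := E) (by omega)
      calc _ ≤ _ := h1
        _ ≤ _ := by gcongr
    · have h1 : (#(P0c L ε p₁ p₂ Q) : ℝ) ≤ #Q := by
        have h2 : #(P0c L ε p₁ p₂ Q) ≤ #Q := card_image_le.trans (card_filter_le _ _)
        exact_mod_cast h2
      have h2 : L ^ E * lam ^ 2 * (#Q / lam ^ 2) = L ^ E * #Q := by
        field_simp
      rw [h2]
      have h3 : 1 ≤ L ^ E := one_le_pow₀ hL1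
      nlinarith
    · intro al' hal' t r ht htr hr s₀ h₀
      obtain ⟨p', hp', rfl⟩ := mem_image.1 hal'
      have h1 := hst (al p₁ p₂ p') (h.al_abs (hP' hp')).2.1 t r s₀ h₀ ht (ht.trans htr)
      have hm0 : (0 : ℝ) ≤ #Q / lam ^ 2 := by positivity
      calc _ ≤ ∑ x ∈ P'.image (al p₁ p₂), ∑ y ∈ (yy x).image (st L δ p₁ p₂ (pinv x)),
            ((#Q / lam ^ 2 : ℝ) * #(({k ∈ yy x | st L δ p₁ p₂ (pinv x) k = y}).filter
              (Box (al p₁ p₂ p') t r s₀ h₀))) ^ 3 :=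
            sum_le_sum_of_subset_of_nonneg (filter_subset _ _)
              (fun x _ _ => sum_nonneg fun y _ => by positivity)
        _ = ∑ p ∈ P', ∑ x ∈ (Ya L lam δ ε p₁ p₂ #Q W a J w₀ G p).image (st L δ p₁ p₂ p),
            (#Q / lam ^ 2 * #{k ∈ Ya L lam δ ε p₁ p₂ #Q W a J w₀ G p |
              st L δ p₁ p₂ p k = x ∧ Box (al p₁ p₂ p') t r s₀ h₀ k} : ℝ) ^ 3 := by
            rw [sum_image hainj]
            refine sum_congr rfl fun p hp => ?_
            simp only [hyy, hpi p hp, filter_filter]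
        _ ≤ _ := h1
        _ ≤ _ := by
            have h2 : L ^ E * (lam * (#Q / lam ^ 2)) = L ^ E * (#Q / lam) := by
              field_simp
            rw [h2]
            have h3 := hmono (i := eS) (j := E) (by omega)
            have h4 := hmono (i := 2) (j := E) (by omega)
            have ht0 : 0 < t := lt_of_lt_of_le hd ht
            have hr0 : 0 < r := lt_of_lt_of_le ht0 htr
            have h5 : #{k ∈ P0c L ε p₁ p₂ Q |
                Box (al p₁ p₂ p') (L ^ 2 * t) (L ^ 2 * r) s₀ h₀ k} ≤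
                #((P0c L ε p₁ p₂ Q).filter (Box (al p₁ p₂ p') (L ^ E * t) (L ^ E * r) s₀ h₀)) := by
              refine card_le_card fun k hk => ?_
              obtain ⟨hk1, hk2⟩ := mem_filter.1 hk
              exact mem_filter.2 ⟨hk1, box_mono (by gcongr) (by gcongr) hk2⟩
            have h6 : (#{k ∈ P0c L ε p₁ p₂ Q |
                Box (al p₁ p₂ p') (L ^ 2 * t) (L ^ 2 * r) s₀ h₀ k} : ℝ) ≤
                #((P0c L ε p₁ p₂ Q).filter (Box (al p₁ p₂ p') (L ^ E * t) (L ^ E * r) s₀ h₀)) := by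
              exact_mod_cast h5
            gcongr
  · intro x hx
    obtain ⟨q, hq, rfl⟩ := mem_image.1 hx
    have h1 := h.fr.cc_abs (h.fr.boxY h.fr.hw₀ h.fr.m2) (hPJ.box q (h.subG (hGG hq)))
      (h.hlow (hGG hq))
    have h2 := rd_near (t := cc ε p₁ p₂ p₂ q) hd
    have h3 := h.fr.small' (k := 8) (by norm_num)
    have h4 : L ^ 8 * δ ≤ 1 := by
      rw [mul_comm]
      refine h3.trans ?_
      norm_num
    have h5 : |rd (L ^ 8 * δ) (cc ε p₁ p₂ p₂ q)| ≤ 4 * L ^ 2 + 1 := by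
      have h6 := abs_le.1 h1
      have h7 := abs_le.1 h2
      rw [abs_le]
      constructor <;> linarith
    have h6 : 4 * L ^ 2 + 1 ≤ L ^ 3 := by
      have h7 : (5 : ℝ) ≤ L := by
        have : (5 : ℝ) ≤ 2 ^ 40 := by norm_num
        linarith
      have h8 : 1 ≤ L ^ 2 := one_le_pow₀ hL1
      nlinarith
    exact h5.trans (h6.trans (hmono (by omega)))
  · intro x hx
    obtain ⟨q, hq, rfl⟩ := mem_image.1 hx
    exact (mem_filter.1 hq).2

end Vale.Agent.P065.UB.H651
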